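import Vale.Agent.P167.H947.DT.Det
import Vale.Agent.P167.N.QC.DT.Law
import Vale.Agent.P167.H634.DT.Low
import Vale.Agent.P167.H199.DT.Defs
import Vale.Agent.P167.QE.SeqL
import Vale.Agent.P167.QE.Main

/-!
# P167, `0 < q < 1`: the conditional estimate for the displacement of the driver

`gap_wq`: for the random-cluster interfaces with `0 < q < 1` and an arbitrary approximation of a
marked Jordan domain, the conditional probability, at a stopping index, that the driver moves by `ε`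
within the capacity `d` tends to `0` as `d → 0`.
-/

set_option autoImplicit false
set_option linter.unusedVariables false

open MeasureTheory Filter Topology Set Metric
open scoped NNReal ENNReal Real

namespace Vale.Agent.P167.N.H947.DT

open Vale.Agent.P167 Vale.Agent.P167.H947 Vale.Agent.P167.H947.DT

open Vale.Agent.P164 Vale.Agent.P153.R2.HULL
open Vale.Agent.P153.R2
open Vale.Agent.P153.M1
open Vale.Agent.P153.R2.R1 (len)
open Vale.Agent.P153.R2.DET (Uni HC)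
open Vale.Agent.P167.H411
open Vale.Agent.P167.E6 Vale.Agent.P167.E2
open Vale.Agent.P167.QE
open Vale.Agent.P167.QC.DT (NoCutAt)
open Vale.Agent.P167.N.QC.DT (cex_nocut exists_arm)
open Vale.Agent.P167.N.QN (FrB)
open Vale.Agent.P167.H174.CT (exn_C exn_fin exn_w)
open Vale.Agent.P167.H199.DT (Gap Gev)

section

variable {q : ℝ} {δ : ℕ → ℝ} {N k : ℕ → ℕ} {p : ∀ n, ZMod (N n) → ℤ × ℤ}
  {S : ℕ → Finset (ℤ × ℤ)} {ψn : ℕ → ℂ → ℂ} {bn : ℕ → ℂ} {ψ : ℂ → ℂ} {b : ℂ} {α C : ℝ}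

/-- The estimate for a sequence without degenerate terms. -/
theorem gap_aux (hq0 : 0 < q) (hα : 0 < α) (hC : 0 < C) (hAD : FrB (√q) α C 0)
    (hD : DCs (fun n => Qc (p n) (k n) (δ n) (S n)) ψn bn δ ψ b)
    (hg : ∀ n, 0 < δ n ∧ IsPolygon (p n) ∧ Encloses (p n) (S n) ∧ k n + 1 < N n)
    (himg : ∀ n, ψn n '' {z : ℂ | 0 < z.im} = Om (δ n) (S n)) :
    Gap (exn δ N k p S ψn) (fun n => wq q (N n) (p n) (k n) (S n)) := by
  intro e he η hη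
  have hpi := Real.pi_pos
  -- the ratio of the radii
  obtain ⟨M, hM32, hMη⟩ : ∃ M : ℝ, 32 ≤ M ∧ C * (8 * (2 / M)) ^ α ≤ η / 2 := by
    have h1 : Tendsto (fun M : ℝ => 8 * (2 / M)) atTop (𝓝 (8 * 0)) :=
      (tendsto_const_nhds.div_atTop tendsto_id).const_mul 8
    rw [mul_zero] at h1
    have h2 : Tendsto (fun M : ℝ => C * (8 * (2 / M)) ^ α) atTop
        (𝓝 (C * (0 : ℝ) ^ α)) :=
      (h1.rpow_const (Or.inr hα.le)).const_mul _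
    rw [Real.zero_rpow hα.ne', mul_zero] at h2
    obtain ⟨M, h3, h4⟩ := ((h2.eventually_lt_const (show 0 < η / 2 by positivity)).and
      (eventually_ge_atTop (32 : ℝ))).exists
    exact ⟨M, h4, h3.le⟩
  have hM0 : 0 < M := by linarith
  set ρ₂ : ℝ := e / 4 with hρ₂
  set L : ℝ := 8 * π ^ 2 * M ^ 2 + 1 with hL
  have hLp : 0 < L := by positivity
  set ρ₁ : ℝ := ρ₂ * Real.exp (-L) with hρ₁
  have hρ₂p : 0 < ρ₂ := by positivity
  have hρ₁p : 0 < ρ₁ := by positivity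
  have hρ12 : ρ₁ < ρ₂ := by
    have : Real.exp (-L) < 1 := by rw [Real.exp_lt_one_iff]; linarith
    nlinarith
  have hlog : 8 * π ^ 2 * M ^ 2 < Real.log (ρ₂ / ρ₁) := by
    have h1 : ρ₂ / ρ₁ = Real.exp L := by
      rw [hρ₁, Real.exp_neg]
      field_simp
    rw [h1, Real.log_exp, hL]
    linarith
  refine ⟨ρ₁ ^ 2 / 256, by positivity, fun T R => ?_⟩
  have hX : AsymB (exn δ N k p S ψn) := hD.asymB
  obtain ⟨C₁, hC₁, hbd⟩ := hX.ok.path_bd T R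
  obtain ⟨ℓ₀, hℓ₀, hlow⟩ := H634.DT.len_low (T := C₁) (R := C₁) (X := e / 2) hD.uni hD.unif
    hD.diff hρ₁p hρ12.le
  have hδ0 := hD.eps.eventually_lt_const (show 0 < 2 * ℓ₀ by positivity)
  filter_upwards [hlow, hδ0] with n hn hδn κ hκ hκ1 A hA
  obtain ⟨g1, g2, g3, g4⟩ := hg n
  have H := hD.wf n
  have hU := hD.unin n
  have hd := hD.diff n
  obtain ⟨hkK, hk2⟩ := hκ.2 A hA
  have hkK' : κ A < (Qc (p n) (k n) (δ n) (S n)).K A := hkK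
  have hAC : A ∈ (Qc (p n) (k n) (δ n) (S n)).C := hA
  have hAe : A ⊆ edges (S n) := mem_Qc.1 hAC
  -- the bounds before the exit
  have hbef : (sysX (exn δ N k p S ψn)).Bef T R n ⟨A, hA⟩ (κ A) := by
    intro j hj
    obtain ⟨k3, k4⟩ := hk2 j hj
    have hjK : j ≤ (exn δ N k p S ψn n).K A := by omega
    have e4 : (sysX (exn δ N k p S ψn)).τ n j ⟨A, hA⟩ = (exn δ N k p S ψn n).c A j :=
      Expl.tt_le hjK
    have e5 : (sysX (exn δ N k p S ψn)).V n j ⟨A, hA⟩ = (exn δ N k p S ψn n).V A j :=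
      Expl.W_tt_le hjK
    rw [e4, e5]
    exact ⟨k3, k4⟩
  obtain ⟨hp, hτ⟩ := hbd n ⟨A, hA⟩ (κ A) hbef
  have e1 : (sysX (exn δ N k p S ψn)).τ n (κ A) ⟨A, hA⟩ = (exn δ N k p S ψn n).c A (κ A) :=
    Expl.tt_le hkK.le
  rw [e1] at hτ hp
  have hca0 := ca_nonneg H hU hAC hkK'
  -- the core, for both signs
  have core : ∀ x₀ : ℝ, |x₀| = e / 2 → ∃ (z₀ : ℂ) (ℓ rs : ℝ), ℓ₀ ≤ ℓ ∧ rs ∈ Ioo ρ₁ ρ₂ ∧
      (∀ w ∈ arc x₀ rs, dist (Fm (Qc (p n) (k n) (δ n) (S n)) (ψn n) A (κ A) w) z₀ ≤ 2 * ℓ) ∧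
      ∀ G ⊆ Fm (Qc (p n) (k n) (δ n) (S n)) (ψn n) A (κ A) '' UH ∩ ball z₀ (M * ℓ),
        IsPreconnected G → ∀ w₁ ∈ UH, ∀ w₂ ∈ UH,
        Fm (Qc (p n) (k n) (δ n) (S n)) (ψn n) A (κ A) w₁ ∈ G →
        Fm (Qc (p n) (k n) (δ n) (S n)) (ψn n) A (κ A) w₂ ∈ G →
        ‖w₁ - x₀‖ ≤ ρ₁ → ‖w₂ - x₀‖ < ρ₂ := by
    intro x₀ hx₀
    obtain ⟨V, hV0, hV⟩ := vol_fin hU
    have hvol : volume (Fm (Qc (p n) (k n) (δ n) (S n)) (ψn n) A (κ A) '' UH) ≤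
        ENNReal.ofReal V := by
      refine (measure_mono ?_).trans hV
      have h1 : Fm (Qc (p n) (k n) (δ n) (S n)) (ψn n) A (κ A) '' UH =
          ψn n '' UH \ (Qc (p n) (k n) (δ n) (S n)).X A '' Icc 0 (κ A : ℝ) :=
        Fm_image H hU hAC hkK'
      rw [h1]
      exact Set.sdiff_subset
    exact exists_core (Fm_diff H hU hAC hd hkK') (Fm_inj H hU hAC hkK') hV0 hvol hρ₁p hρ12
      (by linarith) hlog hℓ₀ fun ρ hρ => hn _ (wd_cont H hU hAC) _ ⟨hca0, hτ⟩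
        (fun u hu => hp u hu.1 hu.2) x₀ hx₀.le ρ ⟨hρ.1.le, hρ.2.le⟩
  obtain ⟨z₁, ℓ₁, r₁, a1, a2, a3, a4⟩ := core (e / 2) (abs_of_pos (by positivity))
  obtain ⟨z₂, ℓ₂, r₂, b1, b2, b3, b4⟩ := core (-(e / 2)) (by
    rw [abs_neg]; exact abs_of_pos (by positivity))
  -- the inclusion
  have incl : ∀ A' ∈ cyl (exn δ N k p S ψn n) A (κ A), A' ∈ Gev (exn δ N k p S ψn n) κ e
      (ρ₁ ^ 2 / 256) →
      NoCutAt (p n) (k n) (δ n) (S n) A' (κ A) z₁ (2 * ℓ₁) (M * ℓ₁) ∨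
      NoCutAt (p n) (k n) (δ n) (S n) A' (κ A) z₂ (2 * ℓ₂) (M * ℓ₂) := by
    rintro A' ⟨hA', hag⟩ ⟨j, hj1, hj2, hj3, hj4⟩
    have hκA' : κ A' = κ A := hκ.1 A hA A' hA' hag
    rw [hκA'] at hj1 hj3 hj4
    have hA'C : A' ∈ (Qc (p n) (k n) (δ n) (S n)).C := hA'
    obtain ⟨hk', hF⟩ := Fm_congr H hU hAC hA'C hkK' hag
    have hj2' : j < (Qc (p n) (k n) (δ n) (S n)).K A' := hj2
    obtain ⟨u, hu, hur⟩ := visit H hU hA'C hk' hj1 hj2' he hρ₁p (by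
      have : ca (Qc (p n) (k n) (δ n) (S n)) (ψn n) A' j -
        ca (Qc (p n) (k n) (δ n) (S n)) (ψn n) A' (κ A) ≤ ρ₁ ^ 2 / 256 := hj3
      linarith) hj4
    -- the passage to `NoCutAt`
    have pass : ∀ (x₀ : ℝ) (z₀ : ℂ) (ℓ rs : ℝ), |x₀| = e / 2 → ℓ₀ ≤ ℓ → rs ∈ Ioo ρ₁ ρ₂ →
        (∀ w ∈ arc x₀ rs, dist (Fm (Qc (p n) (k n) (δ n) (S n)) (ψn n) A (κ A) w) z₀ ≤ 2 * ℓ) →
        (∀ G ⊆ Fm (Qc (p n) (k n) (δ n) (S n)) (ψn n) A (κ A) '' UH ∩ ball z₀ (M * ℓ),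
          IsPreconnected G → ∀ w₁ ∈ UH, ∀ w₂ ∈ UH,
          Fm (Qc (p n) (k n) (δ n) (S n)) (ψn n) A (κ A) w₁ ∈ G →
          Fm (Qc (p n) (k n) (δ n) (S n)) (ψn n) A (κ A) w₂ ∈ G →
          ‖w₁ - x₀‖ ≤ ρ₁ → ‖w₂ - x₀‖ < ρ₂) →
        ‖Gm (Qc (p n) (k n) (δ n) (S n)) (ψn n) A' (κ A) u - x₀‖ < ρ₁ →
        NoCutAt (p n) (k n) (δ n) (S n) A' (κ A) z₀ (2 * ℓ) (M * ℓ) := by
      intro x₀ z₀ ℓ rs c1 c2 c3 c4 c5 c6
      rw [← hF] at c4 c5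
      have hℓ : 0 < ℓ := hℓ₀.trans_le c2
      obtain ⟨s, hs, s', hs', d1, d2, d3⟩ := cross_of_visit H hU hA'C hd hk' hρ₁p c3 (by
        rw [c1, hρ₂]; linarith) c4 (by nlinarith) c5 ⟨u, hu, c6⟩
      refine ⟨s, ⟨hs.1.le, hs.2.le⟩, s', ⟨hs'.1.le, hs'.2.le⟩, d1, d2, ?_⟩
      rw [himg n] at d3
      exact d3
    rcases hur with hur | hur
    · exact Or.inl (pass _ z₁ ℓ₁ r₁ (abs_of_pos (by positivity)) a1 a2 a3 a4 hur)
    · exact Or.inr (pass _ z₂ ℓ₂ r₂ (by rw [abs_neg]; exact abs_of_pos (by positivity)) b1 b2 b3 b4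
        hur)
  -- the conditional probability
  have hw : ∀ a ∈ cyl (exn δ N k p S ψn n) A (κ A), 0 < wq q (N n) (p n) (k n) (S n) a :=
    fun a ha => exn_w hq0 a ha.1
  have hfin : (cyl (exn δ N k p S ψn n) A (κ A)).Finite := cyl_fin exn_fin A (κ A)
  have est : ∀ (z₀ : ℂ) (ℓ : ℝ), ℓ₀ ≤ ℓ →
      cexW (exn δ N k p S ψn n) (wq q (N n) (p n) (k n) (S n))
        ({A' | NoCutAt (p n) (k n) (δ n) (S n) A' (κ A) z₀ (2 * ℓ) (M * ℓ)}.indicator 1) A (κ A) ≤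
      η / 2 := by
    intro z₀ ℓ hℓ
    have hℓp : 0 < ℓ := hℓ₀.trans_le hℓ
    have h1 := cex_nocut (ψn := ψn) (z₀ := z₀) (ρ₁ := 2 * ℓ) (ρ₂ := M * ℓ) hq0 hC.le hα.le hAD g1 g2
      g3 g4 hAe (hκ1 A hA) (by linarith) (by nlinarith)
    refine h1.trans ?_
    have h2 : 2 * ℓ / (M * ℓ) = 2 / M := by field_simp
    rw [h2]
    exact hMη
  calc cexW (exn δ N k p S ψn n) (wq q (N n) (p n) (k n) (S n))
        ((Gev (exn δ N k p S ψn n) κ e (ρ₁ ^ 2 / 256)).indicator 1) A (κ A)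
      ≤ ExW (cyl (exn δ N k p S ψn n) A (κ A)) (wq q (N n) (p n) (k n) (S n)) (fun A' =>
        {A' | NoCutAt (p n) (k n) (δ n) (S n) A' (κ A) z₁ (2 * ℓ₁) (M * ℓ₁)}.indicator 1 A' +
        {A' | NoCutAt (p n) (k n) (δ n) (S n) A' (κ A) z₂ (2 * ℓ₂) (M * ℓ₂)}.indicator 1 A') := by
        refine exW_mono hfin hw fun A' hA' => ?_
        have n1 : ∀ s : Set (Finset (Sym2 (ℤ × ℤ))),
            0 ≤ s.indicator (1 : Finset (Sym2 (ℤ × ℤ)) → ℝ) A' := fun s =>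
          Set.indicator_nonneg (fun _ _ => zero_le_one) _
        by_cases hG : A' ∈ Gev (exn δ N k p S ψn n) κ e (ρ₁ ^ 2 / 256)
        · rw [Set.indicator_of_mem hG]
          rcases incl A' hA' hG with h2 | h2
          · rw [Set.indicator_of_mem (show A' ∈ {A' | NoCutAt (p n) (k n) (δ n) (S n) A' (κ A) z₁
              (2 * ℓ₁) (M * ℓ₁)} from h2)]
            have := n1 {A' | NoCutAt (p n) (k n) (δ n) (S n) A' (κ A) z₂ (2 * ℓ₂) (M * ℓ₂)}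
            simp only [Pi.one_apply] at *
            linarith
          · rw [Set.indicator_of_mem (show A' ∈ {A' | NoCutAt (p n) (k n) (δ n) (S n) A' (κ A) z₂
              (2 * ℓ₂) (M * ℓ₂)} from h2)]
            have := n1 {A' | NoCutAt (p n) (k n) (δ n) (S n) A' (κ A) z₁ (2 * ℓ₁) (M * ℓ₁)}
            simp only [Pi.one_apply] at *
            linarith
        · rw [Set.indicator_of_notMem hG]
          exact add_nonneg (n1 _) (n1 _)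
    _ = cexW (exn δ N k p S ψn n) (wq q (N n) (p n) (k n) (S n))
          ({A' | NoCutAt (p n) (k n) (δ n) (S n) A' (κ A) z₁ (2 * ℓ₁) (M * ℓ₁)}.indicator 1)
          A (κ A) +
        cexW (exn δ N k p S ψn n) (wq q (N n) (p n) (k n) (S n))
          ({A' | NoCutAt (p n) (k n) (δ n) (S n) A' (κ A) z₂ (2 * ℓ₂) (M * ℓ₂)}.indicator 1)
          A (κ A) := exW_add hfin _ _ _
    _ ≤ η / 2 + η / 2 := add_le_add (est z₁ ℓ₁ a1) (est z₂ ℓ₂ b1)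
    _ = η := by ring

end

/-- **The estimate for random-cluster interfaces** in arbitrary approximations. -/
theorem gap_wq {q : ℝ} (h1 : Kit (√q)) (huinj : UNIQ.I_uinj)
    {Φ : (ℝ × ℝ) ≃ₜ (ℝ × ℝ)} {ψ : ℂ → ℂ} {δ : ℕ → ℝ} {N k : ℕ → ℕ}
    {p : ∀ n, ZMod (N n) → ℤ × ℤ} {S : ℕ → Finset (ℤ × ℤ)} {ψn : ℕ → ℂ → ℂ}
    (H : Set6 Φ ψ δ N k p S ψn) :
    Gap (exn δ N k p S ψn) (fun n => wq q (N n) (p n) (k n) (S n)) := by
  obtain ⟨α, C, hα, hC, hAD⟩ := exists_arm h1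
  obtain ⟨n₀, hn₀⟩ := eventually_atTop.1 (good_ev H.appr)
  have hD := H.dcs huinj hn₀
  have hgood : ∀ n, k (n + n₀) + 1 < N (n + n₀) := fun n => hn₀ _ (Nat.le_add_left _ _)
  have key := gap_aux (δ := fun n => δ (n + n₀)) (N := fun n => N (n + n₀))
    (k := fun n => k (n + n₀)) (p := fun n => p (n + n₀)) (S := fun n => S (n + n₀))
    (ψn := fun n => ψn (n + n₀)) h1.q_pos hα hC hAD hD
    (fun n => by
      obtain ⟨c1, -, -, c4, c5⟩ := H.appr.1 (n + n₀)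
      exact ⟨c1, c4, c5, hgood n⟩) (fun n => (H.isU _ (hgood n)).img)
  intro e he η hη
  obtain ⟨d, hd, hd'⟩ := key e he η hη
  refine ⟨d, hd, fun T R => ?_⟩
  obtain ⟨m, hm⟩ := eventually_atTop.1 (hd' T R)
  filter_upwards [eventually_ge_atTop (m + n₀)] with n hn
  obtain ⟨i, rfl⟩ : ∃ i, n = i + n₀ := ⟨n - n₀, by omega⟩
  exact hm i (by omega)

end Vale.Agent.P167.N.H947.DT
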